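import Vale.Agent.P358.MathlibUsed
import Vale.Agent.P358.Defs
import Vale.Agent.P358.DefsBin
import Vale.Agent.P358.Bdl.B1

set_option autoImplicit false

namespace Vale.Agent.Results.P358.CapacityFormula

open Vale.Agent.P358

/-- For every generalized amplitude-damping channel the Holevo capacity is additive under
tensor powers, the classical capacity equals the Holevo capacity, and it is the maximum of an
explicit function of one real variable. -/
theorem result (γ ν : ℝ) (hγ : γ ∈ Set.Icc (0 : ℝ) 1) (hν : ν ∈ Set.Icc (0 : ℝ) 1) :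
    (∀ n : ℕ, BddAbove (holevoSet (tensorPower (gadc γ ν) n))) ∧
    (∀ n : ℕ, holevo (tensorPower (gadc γ ν) n) = n * holevo (gadc γ ν)) ∧
    capacity (gadc γ ν) = holevo (gadc γ ν) ∧
    IsGreatest ((fun q : ℝ => h2 ((1 - γ) * q + γ * ν) -
      h2 ((1 + √((1 - 2 * ((1 - γ) * q + γ * ν)) ^ 2 + 4 * (1 - γ) * (q * (1 - q)))) / 2)) ''
      Set.Icc 0 1) (capacity (gadc γ ν)) := by
  refine ⟨fun n => ⟨n * holevo (gadc γ ν), fun _ hv => mem_holevoSet_le hγ hν n hv⟩,
    holevo_tensorPower hγ hν, capacity_eq_holevo hγ hν, ?_⟩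
  rw [capacity_eq_holevo hγ hν]
  exact holevo_formula hγ hν

end Vale.Agent.Results.P358.CapacityFormula
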